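import Vale.Agent.P249.R2.H445.Spec

/-! # P249.AspectRatio: ROW PAR -/

namespace Vale.Agent.P249.R2.H411

open Vale.Agent.P249.H445

theorem mcond (P δ l n : ℝ) (N m : ℕ) (hP : 1 ≤ P) (hn : 1 ≤ n) (hl : l = 1 + Real.log n)
    (hδ : 0 < δ) (hNr : (1:ℝ) ≤ N) (hmge : 288 * 8 ^ P * Real.sqrt N * l / δ ^ 2 ≤ m) :
    4 * (N * (4 * (N : ℝ) ^ (-(1 / (2 * P)))) ^ P) * 2 ^ P * Real.log (2 * n ^ 2 + 1) ≤
    (δ / 6) ^ 2 * m := by
  have hP0 : 0 < P := by linarith only [hP]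
  have h1 : (N : ℝ) * (4 * (N : ℝ) ^ (-(1 / (2 * P)))) ^ P = 4 ^ P * Real.sqrt N := by
    rw [Real.mul_rpow (by norm_num) (by positivity), ← Real.rpow_mul (by positivity)]
    rw [show -(1 / (2 * P)) * P = -(1 / 2 : ℝ) by field_simp]
    have h2 : (N : ℝ) * (N : ℝ) ^ (-(1 / 2 : ℝ)) = Real.sqrt N := by
      rw [Real.sqrt_eq_rpow]
      nth_rewrite 1 [← Real.rpow_one (N : ℝ)]
      rw [← Real.rpow_add (by linarith only [hNr])]
      norm_num
    calc (N : ℝ) * (4 ^ P * (N : ℝ) ^ (-(1 / 2 : ℝ)))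
        = 4 ^ P * ((N : ℝ) * (N : ℝ) ^ (-(1 / 2 : ℝ))) := by ring
      _ = _ := by rw [h2]
  rw [h1]
  have h3 : Real.log (2 * n ^ 2 + 1) ≤ 2 * l := by
    have h4 : 2 * n ^ 2 + 1 ≤ Real.exp 2 * n ^ 2 := by
      have h5 : (3:ℝ) ≤ Real.exp 2 := by
        have h6 : Real.exp 2 = Real.exp 1 ^ 2 := by rw [← Real.exp_nat_mul]; norm_num
        rw [h6]
        nlinarith only [Real.exp_one_gt_d9]
      nlinarith only [hn, h5]
    calc Real.log (2 * n ^ 2 + 1) ≤ Real.log (Real.exp 2 * n ^ 2) :=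
          Real.log_le_log (by positivity) h4
      _ = 2 * l := by
        rw [Real.log_mul (by positivity) (by positivity), Real.log_exp, Real.log_pow, hl]
        push_cast; ring
  have h8 : (8:ℝ) ^ P = 4 ^ P * 2 ^ P := by
    rw [← Real.mul_rpow (by norm_num) (by norm_num)]; norm_num
  calc 4 * (4 ^ P * Real.sqrt N) * 2 ^ P * Real.log (2 * n ^ 2 + 1)
      ≤ 4 * (4 ^ P * Real.sqrt N) * 2 ^ P * (2 * l) := by (clear * - hNr h3; gcongr)
    _ = (δ / 6) ^ 2 * (288 * 8 ^ P * Real.sqrt N * l / δ ^ 2) := by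
        rw [h8]; field_simp; ring
    _ ≤ (δ / 6) ^ 2 * m := by gcongr

theorem log_pow_le (P : ℝ) (hP : 1 ≤ P) (N : ℝ) (hN : 1 ≤ N) :
    (1 + Real.log N) ^ (2 * P) ≤ (1 + 8 * P) ^ (2 * P) * N ^ (1 / 4 : ℝ) := by
  have hP0 : 0 < P := by linarith only [hP]
  have hN0 : 0 < N := by linarith only [hN]
  have h1 : Real.log N ≤ N ^ (1 / (8 * P)) / (1 / (8 * P)) :=
    Real.log_le_rpow_div hN0.le (by positivity)
  have hlog : 0 ≤ Real.log N := Real.log_nonneg hN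
  have h2 : 1 + Real.log N ≤ (1 + 8 * P) * N ^ (1 / (8 * P)) := by
    have h3 : 1 ≤ N ^ (1 / (8 * P)) := Real.one_le_rpow hN (by positivity)
    have h4 : N ^ (1 / (8 * P)) / (1 / (8 * P)) = 8 * P * N ^ (1 / (8 * P)) := by field_simp
    rw [h4] at h1
    linarith only [h1, h3]
  calc (1 + Real.log N) ^ (2 * P) ≤ ((1 + 8 * P) * N ^ (1 / (8 * P))) ^ (2 * P) :=
        Real.rpow_le_rpow (by positivity) h2 (by positivity)
    _ = _ := by
      rw [Real.mul_rpow (by positivity) (by positivity), ← Real.rpow_mul hN0.le]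
      congr 2
      field_simp
      norm_num

theorem exp_ge (c : ℝ) (hc : 0 ≤ c) (y : ℝ) (hy : 0 ≤ y) : y ^ c ≤ Real.exp (c * y) := by
  have h1 : y ≤ Real.exp y := by
    have := Real.add_one_le_exp y
    linarith only [this]
  calc y ^ c ≤ (Real.exp y) ^ c := Real.rpow_le_rpow hy h1 hc
    _ = Real.exp (c * y) := by rw [← Real.exp_mul, mul_comm]

theorem two_exp (P : ℝ) (hP : 0 ≤ P) (L : ℕ) : ((2:ℝ) ^ P) ^ L ≤ Real.exp (P * L) := by
  have h5 : (2:ℝ) ≤ Real.exp 1 := by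
    have := Real.exp_one_gt_d9
    linarith only [this]
  have h4 : (2:ℝ) ^ P ≤ Real.exp P := by
    calc (2:ℝ) ^ P ≤ Real.exp 1 ^ P := Real.rpow_le_rpow (by norm_num) h5 hP
      _ = Real.exp P := by rw [← Real.exp_mul, one_mul]
  calc ((2:ℝ) ^ P) ^ L ≤ Real.exp P ^ L := pow_le_pow_left₀ (by positivity) h4 L
    _ = Real.exp (P * L) := by rw [← Real.exp_nat_mul, mul_comm]

/-- the estimate of `ℓ` -/
theorem ell_est (P c y l R : ℝ) (N L ℓ : ℕ) (hP : 1 ≤ P) (hc : 0 ≤ c) (hy : 1 ≤ y)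
    (hl : 1 ≤ l) (hR : 1 ≤ R) (hN : (1:ℝ) ≤ N) (hL : (L : ℝ) ≤ (c + 1) * y)
    (hℓ : (ℓ : ℝ) ≤ 6 + 2 * l + P * Real.log R + P * L + 1 / 2 * Real.log N) :
    (ℓ : ℝ) ≤ (9 + P + P * (c + 1)) * (l * R * y * (1 + Real.log N)) := by
  have hlogN : 0 ≤ Real.log N := Real.log_nonneg hN
  have hlogR : Real.log R ≤ R := (Real.log_le_sub_one_of_pos (by linarith)).trans (by linarith)
  have hP0 : 0 < P := by linarith only [hP]
  obtain ⟨Z, hZ⟩ : ∃ Z, Z = l * R * y * (1 + Real.log N) := ⟨_, rfl⟩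
  have h1 : 1 ≤ 1 + Real.log N := by linarith only [hlogN]
  have a1 : 1 ≤ l * R := by nlinarith only [hl, hR]
  have a2 : 1 ≤ l * R * y := by nlinarith only [a1, hy]
  have a3 : 1 ≤ y * (1 + Real.log N) := by nlinarith only [hy, h1]
  have hZ1 : 1 ≤ Z := by rw [hZ]; nlinarith only [a2, h1]
  have hZl : l ≤ Z := by
    have : Z = l * (R * (y * (1 + Real.log N))) := by rw [hZ]; ring
    have h2 : 1 ≤ R * (y * (1 + Real.log N)) := by nlinarith only [hR, a3]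
    rw [this]; nlinarith only [hl, h2]
  have hZR : R ≤ Z := by
    have : Z = R * (l * (y * (1 + Real.log N))) := by rw [hZ]; ring
    have h2 : 1 ≤ l * (y * (1 + Real.log N)) := by nlinarith only [hl, a3]
    rw [this]; nlinarith only [hR, h2]
  have hZy : y ≤ Z := by
    have : Z = y * (l * R * (1 + Real.log N)) := by rw [hZ]; ring
    have h2 : 1 ≤ l * R * (1 + Real.log N) := by nlinarith only [a1, h1]
    rw [this]; nlinarith only [hy, h2]
  have hZN : 1 + Real.log N ≤ Z := by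
    have : Z = (l * R * y) * (1 + Real.log N) := by rw [hZ]
    rw [this]; nlinarith only [a2, h1]
  rw [← hZ]
  have b1 : P * Real.log R ≤ P * Z := by
    apply mul_le_mul_of_nonneg_left _ hP0.le
    linarith only [hlogR, hZR]
  have b2 : P * (L : ℝ) ≤ P * (c + 1) * Z := by
    calc P * (L : ℝ) ≤ P * ((c + 1) * y) := by gcongr
      _ ≤ P * ((c + 1) * Z) := by gcongr
      _ = _ := by ring
  nlinarith only [hℓ, b1, b2, hZ1, hZl, hZN, hlogN]

/-- the final estimate -/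
theorem dim_est (P c y l R s m T b W : ℝ) (N ℓ L : ℕ) (hP : 1 ≤ P) (hc : 0 ≤ c) (hy : 1 ≤ y)
    (hl : 1 ≤ l) (hR : 1 ≤ R) (hN : (1:ℝ) ≤ N) (hL : (L : ℝ) ≤ (c + 1) * y)
    (hW : W = (ℓ : ℝ) ^ P) (hW1 : 1 ≤ W)
    (hs : s = R ^ P * (2 ^ P) ^ L * Real.sqrt N)
    (hℓ : (ℓ : ℝ) ≤ (9 + P + P * (c + 1)) * (l * R * y * (1 + Real.log N)))
    (hm : m ≤ 289 * 8 ^ P * Real.sqrt N * l * y ^ 2) (hT : T ≤ 49 * l * W * y) (hT0 : 0 ≤ T)
    (hb : b ≤ 318 * s * W * y) (hb0 : 0 ≤ b) :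
    m + T * b ≤ ((289 * 8 ^ P + 15582) * (9 + P + P * (c + 1)) ^ (2 * P) * (1 + 8 * P) ^ (2 * P)) *
      ((R * l) ^ (3 * P + 1) * Real.exp ((2 * P + 2 + P * (c + 1)) * y)) *
      (N : ℝ) ^ (3 / 4 : ℝ) := by
  have hP0 : 0 < P := by linarith only [hP]
  have hN0 : (0:ℝ) < N := by linarith only [hN]
  have hR0 : 0 < R := by linarith only [hR]
  have hl0 : 0 < l := by linarith only [hl]
  have hy0 : 0 < y := by linarith only [hy]
  have hlogN : 0 ≤ Real.log N := Real.log_nonneg hN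
  have hK0 : 0 < 9 + P + P * (c + 1) := by positivity
  have hsN : 1 ≤ Real.sqrt N := by
    rw [show (1:ℝ) = Real.sqrt 1 by simp]
    exact Real.sqrt_le_sqrt hN
  have hRP : 1 ≤ R ^ P := Real.one_le_rpow hR hP0.le
  have h2P : (1:ℝ) ≤ 2 ^ P := Real.one_le_rpow (by norm_num) hP0.le
  have h2L : (1:ℝ) ≤ (2 ^ P) ^ L := one_le_pow₀ h2P
  have hsge : Real.sqrt N ≤ s := by
    rw [hs]
    have : 1 ≤ R ^ P * (2 ^ P) ^ L := by nlinarith only [hRP, h2L]
    nlinarith only [this, hsN]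
  have hs0 : 0 < s := by linarith only [hsge, hsN]
  have e1 : m + T * b ≤ (289 * 8 ^ P + 15582) * (l * W ^ 2 * y ^ 2 * s) := by
    have f1 : T * b ≤ 15582 * (l * W ^ 2 * y ^ 2 * s) := by
      calc T * b ≤ (49 * l * W * y) * (318 * s * W * y) :=
            mul_le_mul hT hb hb0 (by positivity)
        _ = _ := by ring
    have f2 : m ≤ 289 * 8 ^ P * (l * W ^ 2 * y ^ 2 * s) := by
      calc m ≤ 289 * 8 ^ P * Real.sqrt N * l * y ^ 2 := hm
        _ = 289 * 8 ^ P * (l * 1 ^ 2 * y ^ 2 * Real.sqrt N) := by ring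
        _ ≤ 289 * 8 ^ P * (l * W ^ 2 * y ^ 2 * s) := by gcongr
    linarith only [f1, f2]
  have e2 : W ^ 2 ≤ (9 + P + P * (c + 1)) ^ (2 * P) * ((R * l) ^ (2 * P) * y ^ (2 * P) *
      ((1 + 8 * P) ^ (2 * P) * (N : ℝ) ^ (1 / 4 : ℝ))) := by
    have g1 : W ^ 2 = (ℓ : ℝ) ^ (2 * P) := by
      rw [hW, ← Real.rpow_natCast, ← Real.rpow_mul (Nat.cast_nonneg _)]
      congr 1; push_cast; ring
    rw [g1]
    calc (ℓ : ℝ) ^ (2 * P)
        ≤ ((9 + P + P * (c + 1)) * (l * R * y * (1 + Real.log N))) ^ (2 * P) :=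
          Real.rpow_le_rpow (Nat.cast_nonneg _) hℓ (by positivity)
      _ = (9 + P + P * (c + 1)) ^ (2 * P) * ((R * l) ^ (2 * P) * y ^ (2 * P) *
          (1 + Real.log N) ^ (2 * P)) := by
          rw [Real.mul_rpow hK0.le (by positivity), Real.mul_rpow (by positivity) (by positivity),
            Real.mul_rpow (by positivity) hy0.le, mul_comm l R]
      _ ≤ _ := by
          have := log_pow_le P hP N hN
          gcongr
  have e3 : s ≤ (R * l) ^ P * Real.exp (P * (c + 1) * y) * Real.sqrt N := by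
    rw [hs]
    have k1 : R ^ P ≤ (R * l) ^ P :=
      Real.rpow_le_rpow hR0.le (by nlinarith only [hR, hl]) hP0.le
    have k2 : ((2:ℝ) ^ P) ^ L ≤ Real.exp (P * (c + 1) * y) := by
      refine (two_exp P hP0.le L).trans (Real.exp_le_exp.2 ?_)
      calc P * (L : ℝ) ≤ P * ((c + 1) * y) := by gcongr
        _ = _ := by ring
    gcongr
  have e4 : y ^ 2 * y ^ (2 * P) ≤ Real.exp ((2 * P + 2) * y) := by
    have k1 := exp_ge (2 * P + 2) (by positivity) y hy0.le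
    have k2 : y ^ 2 * y ^ (2 * P) = y ^ (2 * P + 2) := by
      rw [Real.rpow_add hy0, mul_comm, Real.rpow_two]
    rw [k2]; exact k1
  have e5 : l ≤ R * l := by nlinarith only [hR, hl]
  have hRl : 1 ≤ R * l := by nlinarith only [hR, hl]
  have hRl0 : 0 < R * l := by positivity
  have e6 : (R * l) * (R * l) ^ (2 * P) * (R * l) ^ P = (R * l) ^ (3 * P + 1) := by
    nth_rewrite 1 [← Real.rpow_one (R * l)]
    rw [← Real.rpow_add hRl0, ← Real.rpow_add hRl0]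
    congr 1; ring
  have e7 : (N : ℝ) ^ (1 / 4 : ℝ) * Real.sqrt N = (N : ℝ) ^ (3 / 4 : ℝ) := by
    rw [Real.sqrt_eq_rpow, ← Real.rpow_add hN0]
    norm_num
  have e8 : Real.exp ((2 * P + 2) * y) * Real.exp (P * (c + 1) * y) =
      Real.exp ((2 * P + 2 + P * (c + 1)) * y) := by
    rw [← Real.exp_add]; ring_nf
  calc m + T * b ≤ (289 * 8 ^ P + 15582) * (l * W ^ 2 * y ^ 2 * s) := e1
    _ ≤ (289 * 8 ^ P + 15582) * ((R * l) * ((9 + P + P * (c + 1)) ^ (2 * P) *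
        ((R * l) ^ (2 * P) * y ^ (2 * P) * ((1 + 8 * P) ^ (2 * P) * (N : ℝ) ^ (1 / 4 : ℝ)))) *
        y ^ 2 * ((R * l) ^ P * Real.exp (P * (c + 1) * y) * Real.sqrt N)) := by gcongr
    _ = ((289 * 8 ^ P + 15582) * (9 + P + P * (c + 1)) ^ (2 * P) * (1 + 8 * P) ^ (2 * P)) *
        (((R * l) * (R * l) ^ (2 * P) * (R * l) ^ P) *
          ((y ^ 2 * y ^ (2 * P)) * Real.exp (P * (c + 1) * y))) *
        ((N : ℝ) ^ (1 / 4 : ℝ) * Real.sqrt N) := by ring
    _ ≤ ((289 * 8 ^ P + 15582) * (9 + P + P * (c + 1)) ^ (2 * P) * (1 + 8 * P) ^ (2 * P)) *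
        (((R * l) * (R * l) ^ (2 * P) * (R * l) ^ P) *
          (Real.exp ((2 * P + 2) * y) * Real.exp (P * (c + 1) * y))) *
        ((N : ℝ) ^ (1 / 4 : ℝ) * Real.sqrt N) := by gcongr
    _ = _ := by rw [e6, e7, e8]

/-- the condition on `ℓ` -/
theorem ell_cond (P l n R s Q : ℝ) (N L ℓ b : ℕ) (hP : 1 ≤ P) (hn : 1 ≤ n)
    (hl : l = 1 + Real.log n) (hR : 1 ≤ R) (hN : (1:ℝ) ≤ N)
    (hs : s = R ^ P * (2 ^ P) ^ L * Real.sqrt N) (hs1 : 1 ≤ s) (hQ : 3 ≤ Q)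
    (hb : (b : ℝ) ≤ 3 * s * Q) (hℓ1 : 1 ≤ ℓ)
    (hℓ : 4 + 2 * l + P * Real.log R + P * L + 1 / 2 * Real.log N ≤ ((ℓ - 1 : ℕ) : ℝ)) :
    2 * Real.exp 1 * (n ^ 2 + 1) * b ≤ Q ^ ℓ := by
  have hP0 : 0 < P := by linarith only [hP]
  have hN0 : (0:ℝ) < N := by linarith only [hN]
  have hR0 : 0 < R := by linarith only [hR]
  have hn0 : 0 < n := by linarith only [hn]
  have hQ0 : 0 < Q := by linarith only [hQ]
  have h3e : Real.exp 1 ≤ 3 := by
    have := Real.exp_one_lt_d9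
    linarith only [this]
  have h1 : n ^ 2 + 1 ≤ 2 * n ^ 2 := by nlinarith only [hn]
  have h12 : 12 * Real.exp 1 ≤ Real.exp 4 * Real.exp 2 := by
    have k1 : Real.exp 4 = Real.exp 1 ^ 4 := by rw [← Real.exp_nat_mul]; norm_num
    have k2 : Real.exp 2 = Real.exp 1 ^ 2 := by rw [← Real.exp_nat_mul]; norm_num
    have k3 := Real.exp_one_gt_d9
    obtain ⟨e, he⟩ : ∃ e, e = Real.exp 1 := ⟨_, rfl⟩
    rw [k1, k2, ← he]
    rw [← he] at k3
    have k4 : 2 ≤ e := by linarith only [k3]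
    have k5 : 32 ≤ e ^ 5 := by
      calc (32:ℝ) = 2 ^ 5 := by norm_num
        _ ≤ e ^ 5 := pow_le_pow_left₀ (by norm_num) k4 5
    calc 12 * e ≤ e ^ 5 * e := by nlinarith only [k4, k5]
      _ = e ^ 4 * e ^ 2 := by ring
  have h2 : n ^ 2 = Real.exp (2 * l - 2) := by
    have : n = Real.exp (l - 1) := by rw [hl, add_sub_cancel_left, Real.exp_log hn0]
    rw [this, ← Real.exp_nat_mul]; push_cast; ring_nf
  have h4 : R ^ P = Real.exp (P * Real.log R) := by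
    rw [Real.rpow_def_of_pos hR0, mul_comm]
  have h5 : Real.sqrt N = Real.exp (1 / 2 * Real.log N) := by
    rw [Real.sqrt_eq_rpow, Real.rpow_def_of_pos hN0, mul_comm]
  have h6 : s ≤ Real.exp (P * Real.log R) * Real.exp (P * L) * Real.exp (1 / 2 * Real.log N) := by
    rw [hs, h4, h5]
    have := two_exp P hP0.le L
    gcongr
  have h7 : Real.exp ((ℓ - 1 : ℕ) : ℝ) ≤ Q ^ (ℓ - 1) := by
    have : Real.exp ((ℓ - 1 : ℕ) : ℝ) = Real.exp 1 ^ (ℓ - 1) := by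
      rw [← Real.exp_nat_mul, mul_one]
    rw [this]
    exact pow_le_pow_left₀ (Real.exp_pos _).le (h3e.trans hQ) _
  calc 2 * Real.exp 1 * (n ^ 2 + 1) * b
      ≤ 2 * Real.exp 1 * (2 * n ^ 2) * (3 * (Real.exp (P * Real.log R) * Real.exp (P * L) *
          Real.exp (1 / 2 * Real.log N)) * Q) := by
        apply mul_le_mul _ _ (by positivity) (by positivity)
        · gcongr
        · refine hb.trans ?_
          gcongr
    _ = (12 * Real.exp 1) * n ^ 2 * (Real.exp (P * Real.log R) * Real.exp (P * L) *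
          Real.exp (1 / 2 * Real.log N)) * Q := by ring
    _ ≤ (Real.exp 4 * Real.exp 2) * Real.exp (2 * l - 2) * (Real.exp (P * Real.log R) *
          Real.exp (P * L) * Real.exp (1 / 2 * Real.log N)) * Q := by
        rw [h2]; gcongr
    _ = Real.exp (4 + 2 * l + P * Real.log R + P * L + 1 / 2 * Real.log N) * Q := by
        rw [← Real.exp_add, ← Real.exp_add, ← Real.exp_add, ← Real.exp_add, ← Real.exp_add]
        ring_nf
    _ ≤ Real.exp ((ℓ - 1 : ℕ) : ℝ) * Q := by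
        apply mul_le_mul_of_nonneg_right (Real.exp_le_exp.2 hℓ) hQ0.le
    _ ≤ Q ^ (ℓ - 1) * Q := by gcongr
    _ = Q ^ ℓ := by rw [← pow_succ, Nat.sub_add_cancel hℓ1]

theorem par : SpecPar := by
  intro P hP
  have hP0 : 0 < P := by linarith only [hP]
  have h2P : (1:ℝ) ≤ 2 ^ P := Real.one_le_rpow (by norm_num) hP0.le
  have h8P : (1:ℝ) ≤ 8 ^ P := Real.one_le_rpow (by norm_num) hP0.le
  obtain ⟨c, hc⟩ : ∃ c, c = 960 * P * 2 ^ P := ⟨_, rfl⟩
  have hc0 : 0 ≤ c := by rw [hc]; positivity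
  obtain ⟨K, hK⟩ : ∃ K, K = (289 * (8:ℝ) ^ P + 15582) * (9 + P + P * (c + 1)) ^ (2 * P) *
    (1 + 8 * P) ^ (2 * P) := ⟨_, rfl⟩
  have hK1 : 1 ≤ K := by
    have k1 : 1 ≤ (9 + P + P * (c + 1)) ^ (2 * P) :=
      Real.one_le_rpow (by nlinarith only [hP0, hc0, mul_nonneg hP0.le hc0]) (by positivity)
    have k2 : 1 ≤ (1 + 8 * P) ^ (2 * P) := Real.one_le_rpow (by linarith only [hP0]) (by positivity)
    have k3 : 1 ≤ 289 * (8:ℝ) ^ P + 15582 := by linarith only [h8P]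
    rw [hK]
    nlinarith only [mul_le_mul k3 k1 zero_le_one (by linarith only [k3]), k2, k1, k3]
  have hlogK : 0 ≤ Real.log K := Real.log_nonneg hK1
  refine ⟨Real.log K + (2 * P + 2 + P * (c + 1)) + (3 * P + 1), ?_, ?_⟩
  · nlinarith only [hP, hlogK, hc0, mul_nonneg hP0.le hc0]
  intro δ hδ hδ1 n hn R hR N hN
  obtain ⟨l, hl⟩ : ∃ l, l = 1 + Real.log n := ⟨_, rfl⟩
  have hlogn : 0 ≤ Real.log n := Real.log_nonneg hn
  have hl1 : 1 ≤ l := by rw [hl]; linarith only [hlogn]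
  have hl0 : 0 < l := by linarith only [hl1]
  have hR0 : 0 < R := by linarith only [hR]
  obtain ⟨y, hy⟩ : ∃ y, y = 1 / δ := ⟨_, rfl⟩
  have hy1 : 1 ≤ y := by rw [hy, le_div_iff₀ hδ]; linarith only [hδ1]
  have hy0 : 0 < y := by linarith only [hy1]
  have hδy : δ * y = 1 := by rw [hy]; field_simp
  have hNr : (1:ℝ) ≤ N := by exact_mod_cast hN
  have hN0 : (0:ℝ) < N := by linarith only [hNr]
  have hlogN : 0 ≤ Real.log N := Real.log_nonneg hNr
  have hlogR : 0 ≤ Real.log R := Real.log_nonneg hR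
  have hsN : 1 ≤ Real.sqrt N := by
    rw [show (1:ℝ) = Real.sqrt 1 by simp]
    exact Real.sqrt_le_sqrt hNr
  -- L
  obtain ⟨L, hLdef⟩ : ∃ L : ℕ, L = ⌈c * y⌉₊ := ⟨_, rfl⟩
  have hcpos : 0 < c := by rw [hc]; positivity
  have hL0 : 0 < L := by rw [hLdef]; exact Nat.ceil_pos.2 (by positivity)
  have hLr : (0:ℝ) < L := by exact_mod_cast hL0
  have hLge : c * y ≤ L := by rw [hLdef]; exact Nat.le_ceil _
  have hLle : (L : ℝ) ≤ (c + 1) * y := by
    have := Nat.ceil_lt_add_one (show 0 ≤ c * y by positivity)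
    rw [← hLdef] at this
    nlinarith only [hy1, this]
  have hLe : 160 / (L : ℝ) * (6 * P * 2 ^ P) ≤ δ := by
    rw [div_mul_eq_mul_div, div_le_iff₀ hLr]
    calc 160 * (6 * P * 2 ^ P) = δ * (c * y) := by
          rw [hc, show δ * (960 * P * 2 ^ P * y) = 960 * P * 2 ^ P * (δ * y) by ring, hδy]; ring
      _ ≤ δ * L := by gcongr
  obtain ⟨e, he⟩ : ∃ e, e = 160 / (L : ℝ) := ⟨_, rfl⟩
  have he0 : 0 ≤ e := by rw [he]; positivity
  have he1 : 2 ^ P * (160 / (L : ℝ)) ≤ δ / 6 := by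
    rw [← he] at hLe ⊢
    have : 2 ^ P * e * 1 ≤ 2 ^ P * e * P := by (clear * - hP he0; gcongr)
    linarith only [hLe, this]
  have he2 : P * (160 / (L : ℝ)) ≤ δ / 6 := by
    rw [← he] at hLe ⊢
    have : P * e * 1 ≤ P * e * 2 ^ P := by (clear * - hP0 h2P he0; gcongr)
    linarith only [hLe, this]
  -- m
  obtain ⟨z, hz⟩ : ∃ z, z = 8 ^ P * Real.sqrt N * l * y ^ 2 := ⟨_, rfl⟩
  have hz1 : 1 ≤ z := by
    have k1 : 1 ≤ 8 ^ P * Real.sqrt N := by nlinarith only [h8P, hsN]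
    have k2 : 1 ≤ 8 ^ P * Real.sqrt N * l := by nlinarith only [k1, hl1]
    have k3 : 1 ≤ y ^ 2 := by nlinarith only [hy1]
    rw [hz]; nlinarith only [k2, k3]
  obtain ⟨m, hm⟩ : ∃ m : ℕ, m = ⌈288 * z⌉₊ := ⟨_, rfl⟩
  have hm0 : 0 < m := by rw [hm]; exact Nat.ceil_pos.2 (by linarith only [hz1])
  have hmge : 288 * z ≤ m := by rw [hm]; exact Nat.le_ceil _
  have hmle : (m : ℝ) ≤ 289 * 8 ^ P * Real.sqrt N * l * y ^ 2 := by
    have := Nat.ceil_lt_add_one (show 0 ≤ 288 * z by linarith only [hz1])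
    rw [← hm] at this
    have k : 289 * 8 ^ P * Real.sqrt N * l * y ^ 2 = 289 * z := by rw [hz]; ring
    rw [k]; linarith only [this, hz1]
  have hmge' : 288 * 8 ^ P * Real.sqrt N * l / δ ^ 2 ≤ m := by
    have k : 288 * 8 ^ P * Real.sqrt N * l / δ ^ 2 = 288 * z := by
      rw [hz, hy]; field_simp
    rw [k]; exact hmge
  -- s
  obtain ⟨s, hs⟩ : ∃ s, s = R ^ P * (2 ^ P) ^ L * Real.sqrt N := ⟨_, rfl⟩
  have hs1 : 1 ≤ s := by
    have k1 : 1 ≤ R ^ P := Real.one_le_rpow hR hP0.le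
    have k2 : (1:ℝ) ≤ (2 ^ P) ^ L := one_le_pow₀ h2P
    have k3 : 1 ≤ R ^ P * (2 ^ P) ^ L := by nlinarith only [k1, k2]
    rw [hs]; nlinarith only [k3, hsN]
  -- ℓ
  obtain ⟨X, hX⟩ : ∃ X, X = 4 + 2 * l + P * Real.log R + P * L + 1 / 2 * Real.log N := ⟨_, rfl⟩
  have hX0 : 0 ≤ X := by rw [hX]; positivity
  obtain ⟨ℓ, hℓ⟩ : ∃ ℓ : ℕ, ℓ = ⌈X⌉₊ + 1 := ⟨_, rfl⟩
  have hℓ1 : 1 ≤ ℓ := by omega
  have hℓm : ((ℓ - 1 : ℕ) : ℝ) = (⌈X⌉₊ : ℕ) := by rw [hℓ, Nat.add_sub_cancel]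
  have hℓge : X ≤ ((ℓ - 1 : ℕ) : ℝ) := by rw [hℓm]; exact Nat.le_ceil _
  have hℓle : (ℓ : ℝ) ≤ 6 + 2 * l + P * Real.log R + P * L + 1 / 2 * Real.log N := by
    have := Nat.ceil_lt_add_one hX0
    rw [hℓ]; push_cast
    linarith only [this, hX]
  have hℓest := ell_est P c y l R N L ℓ hP hc0 hy1 hl1 hR hNr hLle hℓle
  obtain ⟨W, hW⟩ : ∃ W, W = (ℓ : ℝ) ^ P := ⟨_, rfl⟩
  have hW1 : 1 ≤ W := by
    rw [hW]; exact Real.one_le_rpow (by exact_mod_cast hℓ1) hP0.le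
  have hW0 : 0 < W := by linarith only [hW1]
  have hWy : 1 ≤ W * y := by nlinarith only [hW1, hy1]
  -- Q
  obtain ⟨Q, hQ⟩ : ∃ Q, Q = 96 * (W * y) + 10 := ⟨_, rfl⟩
  have hQ3 : 3 ≤ Q := by rw [hQ]; linarith only [hWy]
  have hQ0 : 0 < Q := by linarith only [hQ3]
  have hQle : Q ≤ 106 * (W * y) := by rw [hQ]; linarith only [hWy]
  have hsQ : 1 ≤ s * Q := by nlinarith only [hs1, hQ3]
  -- b
  obtain ⟨b, hb⟩ : ∃ b : ℕ, b = ⌈2 * s * Q⌉₊ := ⟨_, rfl⟩
  have hs0 : 0 < s := by linarith only [hs1]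
  have hb0 : 0 < b := by rw [hb]; exact Nat.ceil_pos.2 (by positivity)
  have hbge : 2 * s * Q ≤ b := by rw [hb]; exact Nat.le_ceil _
  have hble : (b : ℝ) ≤ 3 * s * Q := by
    have := Nat.ceil_lt_add_one (show 0 ≤ 2 * s * Q by positivity)
    rw [← hb] at this
    nlinarith only [this, hsQ]
  have hble' : (b : ℝ) ≤ 318 * s * W * y := by
    calc (b : ℝ) ≤ 3 * s * Q := hble
      _ ≤ 3 * s * (106 * (W * y)) := by gcongr
      _ = _ := by ring
  -- T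
  obtain ⟨T, hT⟩ : ∃ T : ℕ, T = ⌈48 * (l * W * y)⌉₊ := ⟨_, rfl⟩
  have hlWy : 1 ≤ l * W * y := by
    have k : l * W * y = l * (W * y) := by ring
    rw [k]; nlinarith only [hl1, hWy]
  have hT0 : 0 < T := by rw [hT]; exact Nat.ceil_pos.2 (by positivity)
  have hTr : (0:ℝ) < T := by exact_mod_cast hT0
  have hTge : 48 * (l * W * y) ≤ T := by rw [hT]; exact Nat.le_ceil _
  have hTle : (T : ℝ) ≤ 49 * l * W * y := by
    have := Nat.ceil_lt_add_one (show 0 ≤ 48 * (l * W * y) by positivity)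
    rw [← hT] at this
    nlinarith only [this, hlWy]
  refine ⟨⟨L, m, b, T, ℓ, Q, hL0, hm0, hb0, hT0, hℓ1, by linarith only [hQ3], he1, he2,
    mcond P δ l n N m hP hn hl hδ hNr hmge', ?_, ?_, ?_, ?_⟩⟩
  · rw [← hs]; exact hbge
  · exact ell_cond P l n R s Q N L ℓ b hP hn hl hR hNr hs hs1 hQ3 hble hℓ1 (by rw [← hX]; exact hℓge)
  · rw [← hW]
    have f1 : W * (4 / Q) * 2 ≤ δ / 12 := by
      rw [mul_div_assoc', div_mul_eq_mul_div, div_le_iff₀ hQ0, hQ]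
      have k : δ * (W * y) = W := by
        rw [show δ * (W * y) = W * (δ * y) by ring, hδy, mul_one]
      nlinarith only [k, hδ, hW0]
    have f2 : W * (2 * Real.log n / T) * 2 ≤ δ / 12 := by
      rw [mul_div_assoc', div_mul_eq_mul_div, div_le_iff₀ hTr]
      have k : δ * (48 * (l * W * y)) = 48 * (l * W) := by
        rw [show δ * (48 * (l * W * y)) = 48 * (l * W) * (δ * y) by ring, hδy, mul_one]
      have k2 : δ * (48 * (l * W * y)) ≤ δ * T := by gcongr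
      have k3 : W * Real.log n ≤ l * W := by
        rw [mul_comm l W]
        apply mul_le_mul_of_nonneg_left _ hW0.le
        rw [hl]; linarith only []
      nlinarith only [k, k2, k3]
    calc W * (4 / Q + 2 * Real.log n / T) * 2
        = W * (4 / Q) * 2 + W * (2 * Real.log n / T) * 2 := by ring
      _ ≤ δ / 12 + δ / 12 := add_le_add f1 f2
      _ = δ / 6 := by ring
  · have hest := dim_est P c y l R s m T b W N ℓ L hP hc0 hy1 hl1 hR hNr hLle hW hW1 hs hℓest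
      hmle hTle hTr.le hble' (Nat.cast_nonneg _)
    rw [← hK] at hest
    rw [← hl]
    have hRl : 1 ≤ R * l := by nlinarith only [hR, hl1]
    have g1 : K ≤ Real.exp (Real.log K * y) := by
      calc K = Real.exp (Real.log K * 1) := by rw [mul_one, Real.exp_log (by linarith)]
        _ ≤ _ := by
          apply Real.exp_le_exp.2
          apply mul_le_mul_of_nonneg_left hy1 hlogK
    have g2 : (R * l) ^ (3 * P + 1) ≤
        (R * l) ^ (Real.log K + (2 * P + 2 + P * (c + 1)) + (3 * P + 1)) := by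
      apply Real.rpow_le_rpow_of_exponent_le hRl
      have : 0 ≤ P * (c + 1) := by positivity
      linarith only [hlogK, this, hP0]
    have g3 : Real.exp (Real.log K * y) * Real.exp ((2 * P + 2 + P * (c + 1)) * y) ≤
        Real.exp ((Real.log K + (2 * P + 2 + P * (c + 1)) + (3 * P + 1)) / δ) := by
      rw [← Real.exp_add]
      apply Real.exp_le_exp.2
      have k : (Real.log K + (2 * P + 2 + P * (c + 1)) + (3 * P + 1)) / δ =
        (Real.log K + (2 * P + 2 + P * (c + 1)) + (3 * P + 1)) * y := by rw [hy]; ring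
      rw [k]
      nlinarith only [hy0, hP0, mul_pos hP0 hy0]
    have hKN : 0 ≤ (N : ℝ) ^ (3 / 4 : ℝ) := by positivity
    calc (m : ℝ) + T * b ≤ K * ((R * l) ^ (3 * P + 1) *
          Real.exp ((2 * P + 2 + P * (c + 1)) * y)) * (N : ℝ) ^ (3 / 4 : ℝ) := hest
      _ ≤ Real.exp (Real.log K * y) * ((R * l) ^ (3 * P + 1) *
          Real.exp ((2 * P + 2 + P * (c + 1)) * y)) * (N : ℝ) ^ (3 / 4 : ℝ) := by gcongr
      _ = (N : ℝ) ^ (3 / 4 : ℝ) * ((Real.exp (Real.log K * y) *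
          Real.exp ((2 * P + 2 + P * (c + 1)) * y)) * (R * l) ^ (3 * P + 1)) := by ring
      _ ≤ _ := by gcongr

end Vale.Agent.P249.R2.H411
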