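import Vale.Agent.P249.R2.H445.Spec2

/-! # P249.AspectRatio: ROW SEP (separation of the grid) -/

namespace Vale.Agent.P249.R2.H411

open Vale.Agent.P249 Vale.Agent.P249.H445

theorem one_sub_pow_le {z : ℂ} (hz : ‖z‖ = 1) (j : ℕ) : ‖1 - z ^ j‖ ≤ j * ‖1 - z‖ := by
  induction j with
  | zero => simp
  | succ j ih =>
    have h : 1 - z ^ (j + 1) = (1 - z ^ j) + z ^ j * (1 - z) := by ring
    rw [h]
    refine (norm_add_le _ _).trans ?_
    rw [norm_mul, norm_pow, hz, one_pow, one_mul]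
    push_cast
    linarith

/-- different roots of unity of order dividing `2k` are at distance at least `1/k` -/
theorem root_sep {z : ℂ} {k : ℕ} (hk : 0 < k) (hz : z ^ (2 * k) = 1) (h1 : z ≠ 1) :
    1 / (k : ℝ) ≤ ‖1 - z‖ := by
  have hkr : (0:ℝ) < k := by exact_mod_cast hk
  have hn : ‖z‖ = 1 := by
    have h2 : ‖z‖ ^ (2 * k) = 1 := by rw [← norm_pow, hz, norm_one]
    exact (pow_eq_one_iff_of_nonneg (norm_nonneg _) (by omega)).1 h2
  have hs : ∑ j ∈ Finset.range (2 * k), z ^ j = 0 := by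
    have h2 := geom_sum_mul z (2 * k)
    rw [hz, sub_self] at h2
    rcases mul_eq_zero.1 h2 with h3 | h3
    · exact h3
    · exact absurd (sub_eq_zero.1 h3) h1
  have h3 : ((2 * k : ℕ) : ℂ) = ∑ j ∈ Finset.range (2 * k), (1 - z ^ j) := by
    rw [Finset.sum_sub_distrib, hs, sub_zero]; simp
  have h4 : (2 * k : ℝ) ≤ ∑ j ∈ Finset.range (2 * k), (j : ℝ) * ‖1 - z‖ := by
    have h5 : ‖((2 * k : ℕ) : ℂ)‖ = 2 * k := by rw [Complex.norm_natCast]; push_cast; rfl
    rw [← h5, h3]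
    exact (norm_sum_le _ _).trans (Finset.sum_le_sum fun j _ => one_sub_pow_le hn j)
  rw [← Finset.sum_mul] at h4
  have h6 : (∑ j ∈ Finset.range (2 * k), (j : ℝ)) * 2 ≤ (2 * k) * (2 * k) := by
    have h7 := Finset.sum_range_id_mul_two (2 * k)
    have h8 : ((∑ j ∈ Finset.range (2 * k), j : ℕ) : ℝ) * 2 = ((2 * k * (2 * k - 1) : ℕ) : ℝ) := by
      exact_mod_cast h7
    push_cast at h8
    rw [h8]
    have h9 : ((2 * k - 1 : ℕ) : ℝ) ≤ 2 * k := by
      have : 2 * k - 1 ≤ 2 * k := Nat.sub_le _ _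
      exact_mod_cast this
    nlinarith
  rw [div_le_iff₀ hkr]
  have h10 : 0 ≤ ‖1 - z‖ := norm_nonneg _
  have h11 : (2 * k : ℝ) * 2 ≤ (2 * k) * (2 * k) * ‖1 - z‖ := by
    calc (2 * k : ℝ) * 2 ≤ ((∑ j ∈ Finset.range (2 * k), (j : ℝ)) * ‖1 - z‖) * 2 := by linarith
      _ = ((∑ j ∈ Finset.range (2 * k), (j : ℝ)) * 2) * ‖1 - z‖ := by ring
      _ ≤ _ := mul_le_mul_of_nonneg_right h6 h10
  nlinarith

theorem root_sep' {u v : ℂ} {k : ℕ} (hk : 0 < k) (hu : u ^ (2 * k) = 1) (hv : v ^ (2 * k) = 1)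
    (h : u ≠ v) : 1 / (k : ℝ) ≤ ‖u - v‖ := by
  have hn : ‖u‖ = 1 := by
    have h2 : ‖u‖ ^ (2 * k) = 1 := by rw [← norm_pow, hu, norm_one]
    exact (pow_eq_one_iff_of_nonneg (norm_nonneg _) (by omega)).1 h2
  have hu0 : u ≠ 0 := by
    intro h0; rw [h0] at hn; simp at hn
  have h1 : u - v = u * (1 - v / u) := by field_simp
  rw [h1, norm_mul, hn, one_mul]
  refine root_sep hk ?_ ?_
  · rw [div_pow, hu, hv, div_one]
  · intro h2
    exact h ((div_eq_one_iff_eq hu0).1 h2).symm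

theorem grid_root {k : ℕ} (hk : 0 < k) {x : EuclideanSpace ℂ (Fin k)} (hx : x ∈ gridSet k k)
    (i : Fin k) : (x i) ^ (2 * k) = 1 := by
  classical
  have hkc : (k : ℂ) ≠ 0 := by exact_mod_cast hk.ne'
  have hroot : ∀ a : Fin k → Fin k, (gridPt k k a i) ^ (2 * k) = 1 := by
    intro a
    unfold gridPt
    rw [torus_apply, ← Complex.exp_nat_mul]
    have h1 : ((2 * k : ℕ) : ℂ) * (Complex.I * ((2 * Real.pi *
        ((WithLp.toLp 2 fun i => ((a i : ℕ) : ℝ) / k : EuclideanSpace ℝ (Fin k)) i) : ℝ) : ℂ)) =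
        ((2 * (a i : ℕ) : ℕ) : ℂ) * (2 * Real.pi * Complex.I) := by
      simp only []
      push_cast
      field_simp
    rw [h1, Complex.exp_nat_mul_two_pi_mul_I]
  unfold gridSet at hx
  rcases Finset.mem_union.1 hx with h | h
  · obtain ⟨a, _, rfl⟩ := Finset.mem_image.1 h
    exact hroot a
  · obtain ⟨a, _, rfl⟩ := Finset.mem_image.1 h
    show (-(gridPt k k a i)) ^ (2 * k) = 1
    rw [Even.neg_pow (even_two_mul k)]
    exact hroot a

theorem grid_norm {k : ℕ} {x : EuclideanSpace ℂ (Fin k)} (hx : x ∈ gridSet k k) :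
    ‖x‖ = Real.sqrt k := by
  classical
  unfold gridSet at hx
  rcases Finset.mem_union.1 hx with h | h
  · obtain ⟨a, _, rfl⟩ := Finset.mem_image.1 h
    exact norm_torus _
  · obtain ⟨a, _, rfl⟩ := Finset.mem_image.1 h
    rw [norm_neg]; exact norm_torus _

theorem sep : SpecSep := by
  intro k hk x hx y hy
  refine ⟨?_, fun hxy => ?_⟩
  · refine (norm_sub_le _ _).trans ?_
    rw [grid_norm hx, grid_norm hy]; linarith
  · obtain ⟨i, hi⟩ : ∃ i, x i ≠ y i := by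
      by_contra hcon
      push Not at hcon
      exact hxy (by ext i; exact hcon i)
    refine (root_sep' hk (grid_root hk hx i) (grid_root hk hy i) hi).trans ?_
    have h := PiLp.norm_apply_le (x - y) i
    exact h

end Vale.Agent.P249.R2.H411
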